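import Mathlib.Analysis.Complex.Basic
import Mathlib.AlgebraicTopology.FundamentalGroupoid.SimplyConnected
import Mathlib.Geometry.Manifold.MFDeriv.Defs
import Mathlib.Geometry.Manifold.Riemannian.Basic
import Mathlib.Topology.VectorBundle.ContinuousAlternatingMap

/-!
# Complex K3 surfaces, Hermitian metrics and the Oka property
-/

open scoped Manifold ContDiff ENNReal
open Bundle Set

namespace Vale.Agent.P290L

variable (E : Type) [NormedAddCommGroup E] [NormedSpace ℂ E] (X : Type) [TopologicalSpace X]
  [ChartedSpace E X] [IsManifold 𝓘(ℂ, E) ω X]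

/-! ### The canonical bundle of a complex surface -/

/-- The model fibre: complex bilinear alternating forms on `E`. -/
abbrev Fib : Type := E [⋀^Fin 2]→L[ℂ] ℂ

/-- The fibre at `x` of the bundle of the forms of type `(2, 0)`: the complex bilinear alternating
forms on the tangent space. -/
abbrev Kx (x : X) : Type := TangentSpace 𝓘(ℂ, E) x [⋀^Fin 2]→L[ℂ] Bundle.Trivial X ℂ x

/-- The total space of this bundle; for a complex surface, of the canonical bundle `K_X`. -/
abbrev Can : Type := TotalSpace (Fib E) (Kx E X)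

variable {E X} in
/-- A holomorphic map from a complex manifold `Y` to the total space. -/
def HolTo (F : Type) [NormedAddCommGroup F] [NormedSpace ℂ F] {H : Type} [TopologicalSpace H]
    (I : ModelWithCorners ℂ F H) {Y : Type} [TopologicalSpace Y] [ChartedSpace H Y]
    (s : Y → Can E X) : Prop :=
  MDifferentiable I (𝓘(ℂ, E).prod 𝓘(ℂ, Fib E)) s

variable {E X} in
/-- A holomorphic function on the total space. -/
def HolOn (u : Can E X → ℂ) : Prop := MDifferentiable (𝓘(ℂ, E).prod 𝓘(ℂ, Fib E)) 𝓘(ℂ, ℂ) u

/-- The canonical bundle is trivial: there are linear isomorphisms `φ x` of `ℂ` with the fibres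
such that `(x, c) ↦ φ x c`, from `X × ℂ` to the total space, and its inverse are holomorphic. -/
def TrivialCanonical : Prop :=
  ∃ φ : ∀ x : X, ℂ ≃ₗ[ℂ] Kx E X x,
    HolTo (E × ℂ) (𝓘(ℂ, E).prod 𝓘(ℂ, ℂ)) (fun p : X × ℂ => (⟨p.1, φ p.1 p.2⟩ : Can E X)) ∧
      HolOn fun q : Can E X => (φ q.1).symm q.2

/-- There is a nowhere vanishing holomorphic two-form. -/
def HasForm : Prop :=
  ∃ σ : ∀ x : X, Kx E X x, HolTo E 𝓘(ℂ, E) (fun x : X => (⟨x, σ x⟩ : Can E X)) ∧ ∀ x, σ x ≠ 0

/-- `X` is a complex K3 surface: a compact connected complex surface that is simply connected and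
has trivial canonical bundle. -/
structure IsK3 : Prop where
  surface : Module.finrank ℂ E = 2
  hausdorff : T2Space X
  compact : CompactSpace X
  connected : ConnectedSpace X
  simplyConnected : SimplyConnectedSpace X
  canonical : TrivialCanonical E X

/-! ### Hermitian metrics -/

/-- A complex manifold is a smooth real manifold, with the same charts. -/
theorem realManifold : IsManifold 𝓘(ℝ, E) ∞ X := by
  refine isManifold_of_contDiffOn _ _ _ fun e e' he he' => ?_
  have h := (StructureGroupoid.compatible (contDiffGroupoid ω 𝓘(ℂ, E)) he he').1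
  exact (ContDiffOn.restrict_scalars ℝ h).of_le le_top

attribute [local instance] realManifold

/-- Smooth Riemannian metrics on the underlying real manifold. -/
abbrev Met : Type := ContMDiffRiemannianMetric 𝓘(ℝ, E) ∞ E (TangentSpace 𝓘(ℝ, E) : X → Type)

variable {E X}

/-- The complex structure of the tangent space: multiplication by `i`. -/
noncomputable def J {x : X} (v : TangentSpace 𝓘(ℂ, E) x) : TangentSpace 𝓘(ℂ, E) x := Complex.I • v

/-- The scalar product `g_x(u, v)`. -/
noncomputable def ip (g : Met E X) (x : X) (u v : TangentSpace 𝓘(ℝ, E) x) : ℝ := g.inner x u v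

/-- `g` is Hermitian: `g(J u, J v) = g(u, v)`. -/
def IsHermitian (g : Met E X) : Prop := ∀ x u v, ip g x (J (x := x) u) (J (x := x) v) = ip g x u v

/-- The distance of the metric `g`: the infimum of the lengths of the `C¹` paths. -/
noncomputable def dist (g : Met E X) (x y : X) : ℝ≥0∞ :=
  letI : RiemannianBundle (TangentSpace 𝓘(ℝ, E) : X → Type) := ⟨g.toRiemannianMetric⟩
  Manifold.riemannianEDist 𝓘(ℝ, E) x y

/-! ### The Oka property -/

/-- A holomorphic map to `X` from a space `U` with charts in `ℂ^m` (an open subset of `ℂ^m`). -/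
def Hol (m : ℕ) {U : Type} [TopologicalSpace U] [ChartedSpace (Fin m → ℂ) U] (f : U → X) : Prop :=
  MDifferentiable 𝓘(ℂ, Fin m → ℂ) 𝓘(ℂ, E) f

/-- The convex approximation property, with the distance of the metric `g`. -/
def IsOka (g : Met E X) : Prop :=
  ∀ m : ℕ, 1 ≤ m → ∀ K : Set (Fin m → ℂ), K.Nonempty → IsCompact K → Convex ℝ K →
    ∀ U : TopologicalSpace.Opens (Fin m → ℂ), ∀ hU : K ⊆ U, ∀ f : U → X, Hol (E := E) m f →
      ∀ ε : ℝ, 0 < ε → ∃ F : (Fin m → ℂ) → X, Hol (E := E) m F ∧
        ⨆ z : K, dist g (F z) (f ⟨z, hU z.2⟩) < ENNReal.ofReal ε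

end Vale.Agent.P290L
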