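import Vale.Agent.P290L37.Defs
import Mathlib.Analysis.Calculus.FDeriv.ContinuousAlternatingMap
import Mathlib.Geometry.Manifold.VectorBundle.MDifferentiable
import Mathlib.Geometry.Manifold.MFDeriv.SpecificFunctions
import Mathlib.Geometry.Manifold.MFDeriv.FDeriv

/-!
# The canonical bundle is trivial if and only if it has a nowhere vanishing holomorphic section
-/

set_option linter.all false

open scoped Manifold ContDiff Topology
open Bundle Set Filter

namespace Vale.Agent.P290L37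

open Vale.Agent.P290L

variable {E : Type} [NormedAddCommGroup E] [NormedSpace ℂ E] {X : Type} [TopologicalSpace X]
  [ChartedSpace E X] [IsManifold 𝓘(ℂ, E) ω X]

theorem form_of_triv (h : TrivialCanonical E X) : HasForm E X := by
  obtain ⟨φ, h1, -⟩ := h
  refine ⟨fun x => φ x 1, fun x => ?_, fun x => (φ x).map_ne_zero_iff.2 one_ne_zero⟩
  exact (h1 (x, 1)).comp x (f := fun x : X => (x, (1 : ℂ)))
    (mdifferentiableAt_id.prodMk mdifferentiableAt_const)

theorem line (b : Module.Basis (Fin 2) ℂ E) {a : Fib E} (ha : a ≠ 0) :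
    a b ≠ 0 ∧ ∀ v : Fib E, v = (v b / a b) • a := by
  have h0 : a b ≠ 0 := (a.toAlternatingMap.map_basis_ne_zero_iff b).2 fun h =>
    ha (ContinuousAlternatingMap.toAlternatingMap_injective h)
  refine ⟨h0, fun v => ContinuousAlternatingMap.ext fun u => ?_⟩
  have h1 : v u = v b * b.det u := DFunLike.congr_fun (v.toAlternatingMap.eq_smul_basis_det b) u
  have h2 : a u = a b * b.det u := DFunLike.congr_fun (a.toAlternatingMap.eq_smul_basis_det b) u
  rw [ContinuousAlternatingMap.smul_apply, h1, h2, smul_eq_mul]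
  field_simp

/-- The fibre coordinate in the trivialisation at `x₀`. -/
noncomputable def co (x₀ : X) (q : Can E X) : Fib E := (trivializationAt (Fib E) (Kx E X) x₀ q).2

theorem co_smul {x₀ x : X} (hx : x ∈ (trivializationAt (Fib E) (Kx E X) x₀).baseSet) (c : ℂ)
    (v : Kx E X x) : co x₀ (⟨x, c • v⟩ : Can E X) = c • co x₀ (⟨x, v⟩ : Can E X) :=
  ((trivializationAt (Fib E) (Kx E X) x₀).linear ℂ hx).map_smul c v

theorem co_ne {x₀ x : X} (hx : x ∈ (trivializationAt (Fib E) (Kx E X) x₀).baseSet)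
    {v : Kx E X x} (hv : v ≠ 0) : co x₀ (⟨x, v⟩ : Can E X) ≠ 0 :=
  ((trivializationAt (Fib E) (Kx E X) x₀).linearEquivAt ℂ x hx).map_ne_zero_iff.2 hv

theorem base_nhds (x₀ : X) : ∀ᶠ x in 𝓝 x₀, x ∈ (trivializationAt (Fib E) (Kx E X) x₀).baseSet :=
  (trivializationAt (Fib E) (Kx E X) x₀).open_baseSet.mem_nhds (mem_baseSet_trivializationAt _ _ _)

theorem triv_of_form (h : Module.finrank ℂ E = 2) (hf : HasForm E X) : TrivialCanonical E X := by
  obtain ⟨σ, hσ, h0⟩ := hf
  have : FiniteDimensional ℂ E := Module.finite_of_finrank_pos (by omega)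
  have b : Module.Basis (Fin 2) ℂ E := Module.finBasisOfFinrankEq ℂ E h
  have hs : ∀ x₀, MDifferentiableAt 𝓘(ℂ, E) 𝓘(ℂ, Fib E)
      (fun x => co x₀ (⟨x, σ x⟩ : Can E X)) x₀ :=
    fun x₀ => ((mdifferentiableAt_totalSpace _ _).1 (hσ x₀)).2
  let φ : ∀ x : X, ℂ ≃ₗ[ℂ] Kx E X x := fun x =>
    LinearEquiv.ofBijective (LinearMap.toSpanSingleton ℂ _ (σ x))
      ⟨smul_left_injective ℂ (h0 x), fun v => ⟨_, ((line b (a := σ x) (h0 x)).2 v).symm⟩⟩
  have hφ : ∀ x c, φ x c = c • σ x := fun _ _ => rfl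
  refine ⟨φ, fun p => (mdifferentiableAt_totalSpace _ _).2 ⟨mdifferentiableAt_fst, ?_⟩,
    fun q => ?_⟩
  · refine (mdifferentiableAt_snd.smul ((hs p.1).comp p mdifferentiableAt_fst)).congr_of_eventuallyEq
      ?_
    filter_upwards [continuous_fst.continuousAt.eventually (base_nhds (E := E) p.1)] with r hr
    exact co_smul hr r.2 (σ r.1)
  · have h1 : MDifferentiableAt (𝓘(ℂ, E).prod 𝓘(ℂ, Fib E)) 𝓘(ℂ, Fib E) (co q.1) q :=
      ((mdifferentiableAt_totalSpace _ _).1 (mdifferentiableAt_id (x := q))).2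
    have h2 : MDifferentiableAt (𝓘(ℂ, E).prod 𝓘(ℂ, Fib E)) 𝓘(ℂ, Fib E)
        (fun r : Can E X => co q.1 (⟨r.1, σ r.1⟩ : Can E X)) q :=
      (hs q.1).comp q (mdifferentiableAt_proj _)
    have h3 : ∀ a : Fib E, DifferentiableAt ℂ (fun v : Fib E => v b) a := fun a =>
      differentiableAt_id.continuousAlternatingMap_apply fun i => differentiableAt_const (b i)
    have h4 : DifferentiableAt ℂ (fun w : Fib E × Fib E => w.1 b * (w.2 b)⁻¹)
        (co q.1 q, co q.1 (⟨q.1, σ q.1⟩ : Can E X)) :=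
      ((h3 _).comp _ differentiableAt_fst).mul
        (DifferentiableAt.inv (h := fun w : Fib E × Fib E => w.2 b)
          ((h3 _).comp _ differentiableAt_snd)
          (line b (co_ne (mem_baseSet_trivializationAt _ _ _) (h0 q.1))).1)
    refine (h4.comp_mdifferentiableAt (x := q)
      (f := fun r : Can E X => (co q.1 r, co q.1 (⟨r.1, σ r.1⟩ : Can E X)))
      (h1.prodMk_space h2)).congr_of_eventuallyEq ?_
    filter_upwards [(FiberBundle.continuous_proj (Fib E) (Kx E X)).continuousAt.eventually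
      (base_nhds (E := E) q.1)] with r hr
    have h5 := co_smul hr ((φ r.1).symm r.2) (σ r.1)
    rw [← hφ, LinearEquiv.apply_symm_apply] at h5
    have h6 := (line b (co_ne hr (h0 r.1))).1
    change _ = co q.1 (⟨r.1, r.2⟩ : Can E X) b * (co q.1 (⟨r.1, σ r.1⟩ : Can E X) b)⁻¹
    rw [h5, ContinuousAlternatingMap.smul_apply, smul_eq_mul, mul_inv_cancel_right₀ h6]

end Vale.Agent.P290L37
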