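import Vale.Agent.P290L37.Oka
import Vale.Agent.P290L37.Iff
import Vale.Agent.P290K89.Herm

/-!
# The distance of a metric; assembly
-/

set_option linter.all false

open scoped Manifold ContDiff ENNReal Topology
open Bundle Set Filter

namespace Vale.Agent.P290L37

open Vale.Agent.P290L

variable {E : Type} [NormedAddCommGroup E] [NormedSpace ℂ E] {X : Type} [TopologicalSpace X]
  [ChartedSpace E X] [IsManifold 𝓘(ℂ, E) ω X]

attribute [local instance] realManifold

theorem dist_top [T2Space X] [CompactSpace X] [ConnectedSpace X] (g : Met E X) (x : X) :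
    (∀ y, P290L.dist g y x < ⊤) ∧
      ∀ s, s ∈ 𝓝 x ↔ ∃ c > 0, {y | P290L.dist g y x < c} ⊆ s := by
  let _ : RiemannianBundle (TangentSpace 𝓘(ℝ, E) : X → Type) := ⟨g.toRiemannianMetric⟩
  have : IsContinuousRiemannianBundle E (TangentSpace 𝓘(ℝ, E) : X → Type) :=
    ⟨g.inner, g.contMDiff.continuous, fun _ _ _ => rfl⟩
  let _ : PseudoEMetricSpace X := .ofRiemannianMetric 𝓘(ℝ, E) X
  refine ⟨fun y => ?_, fun s => EMetric.mem_nhds_iff⟩
  have h : IsClopen (Metric.eball x ⊤) := ⟨Metric.isClosed_eball_top, Metric.isOpen_eball⟩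
  have h2 := h.eq_univ ⟨x, Metric.mem_eball_self ENNReal.zero_lt_top⟩
  exact (h2.ge (mem_univ y) : y ∈ Metric.eball x ⊤)

theorem main (all : ∀ X : P290.All.K3, P290.All.IsOka X.X) :
    (IsK3 E X → (∃ g : Met E X, IsHermitian g) ∧ ∀ g : Met E X, IsHermitian g → IsOka g ∧
      ∀ x, (∀ y, dist g y x < ⊤) ∧ ∀ s, s ∈ 𝓝 x ↔ ∃ c > 0, {y | dist g y x < c} ⊆ s) ∧
    (Module.finrank ℂ E = 2 → (TrivialCanonical E X ↔ HasForm E X)) := by
  refine ⟨fun h => ?_, fun h => ⟨form_of_triv, triv_of_form h⟩⟩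
  obtain ⟨h1, h2, h3, h4, h5, h6⟩ := h
  have : FiniteDimensional ℂ E := Module.finite_of_finrank_pos (by omega)
  exact ⟨P290K89.herm E X, fun g _ => ⟨oka all h1 (form_of_triv h6) g, dist_top g⟩⟩

end Vale.Agent.P290L37
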