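import Vale.Agent.P290L37.Defs
import Vale.Agent.P290.K.AllDefs
import Mathlib.Analysis.Calculus.FDeriv.ContinuousAlternatingMap
import Mathlib.Geometry.Manifold.VectorBundle.MDifferentiable
import Mathlib.Geometry.Manifold.MFDeriv.Atlas

/-!
# From the intrinsic objects to the coefficients in charts
-/

set_option linter.all false

open scoped Manifold ContDiff ENNReal Topology
open Bundle Set Filter

namespace Vale.Agent.P290L37

open Vale.Agent.P290L Vale.Agent.P290.All

variable {E : Type} [NormedAddCommGroup E] [NormedSpace ℂ E] {X : Type} [TopologicalSpace X]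
  [ChartedSpace E X] [IsManifold 𝓘(ℂ, E) ω X]

/-- The standard basis of the plane. -/
noncomputable def bs : Module.Basis (Fin 2) ℂ C2 := Module.Basis.finTwoProd ℂ

/-- The differential of a map from the plane. -/
noncomputable def dif (ψ : C2 → X) (y : C2) : C2 →L[ℂ] E := mfderiv 𝓘(ℂ, C2) 𝓘(ℂ, E) ψ y

/-- The coefficient of the pull back of a form. -/
noncomputable def pull (σ : X → Fib E) (ψ : C2 → X) (y : C2) : ℂ :=
  σ (ψ y) fun i => dif (E := E) ψ y (bs i)

theorem alt_det (a : Fib E) (A : C2 →L[ℂ] E) (v : Fin 2 → C2) :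
    a (fun i => A (v i)) = a (fun i => A (bs i)) * bs.det v := by
  have h := (a.compContinuousLinearMap A).toAlternatingMap.eq_smul_basis_det bs
  exact DFunLike.congr_fun h v

theorem pull_ne {σ : X → Fib E} {ψ : C2 → X} {y : C2} (h : σ (ψ y) ≠ 0)
    (hs : Function.Surjective (dif (E := E) ψ y)) : pull σ ψ y ≠ 0 := fun h0 => h <| by
  ext v
  choose w hw using fun i => hs (v i)
  have e : v = fun i => dif (E := E) ψ y (w i) := funext fun i => (hw i).symm
  rw [e, alt_det]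
  exact mul_eq_zero_of_left h0 _

theorem pull_comp (σ : X → Fib E) {ψ ψ' : C2 → X} {τ : C2 → C2} {y : C2}
    (hτ : DifferentiableAt ℂ τ y) (h' : MDifferentiableAt 𝓘(ℂ, C2) 𝓘(ℂ, E) ψ' (τ y))
    (e : ψ =ᶠ[𝓝 y] ψ' ∘ τ) : pull σ ψ y = pull σ ψ' (τ y) * (fderiv ℂ τ y).det := by
  have h1 : dif (E := E) ψ y = (dif (E := E) ψ' (τ y)).comp (fderiv ℂ τ y) := by
    have h2 := mfderiv_comp y h' hτ.mdifferentiableAt
    rw [mfderiv_eq_fderiv] at h2
    exact e.mfderiv_eq.trans h2
  have h3 : ψ y = ψ' (τ y) := e.self_of_nhds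
  have h4 := bs.det_comp (fderiv ℂ τ y).toLinearMap bs
  rw [bs.det_self, mul_one] at h4
  rw [pull, pull, h1, h3]
  exact (alt_det _ _ fun i => fderiv ℂ τ y (bs i)).trans (congrArg _ h4)

theorem pull_diff {σ : ∀ x : X, Kx E X x}
    (hσ : HolTo E 𝓘(ℂ, E) (fun x : X => (⟨x, σ x⟩ : Can E X))) {ψ : C2 → X} {y : C2}
    (hψ : ContMDiffAt 𝓘(ℂ, C2) 𝓘(ℂ, E) ω ψ y) : DifferentiableAt ℂ (pull σ ψ) y := by
  have h1 := ((mdifferentiableAt_totalSpace _ _).1 (hσ (ψ y))).2
  have h2 : DifferentiableAt ℂ (fun w => ContinuousAlternatingMap.inCoordinates E ℂ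
      (E₂ := Bundle.Trivial X ℂ) (ψ y) (ψ w) (ψ y) (ψ w) (σ (ψ w))) y :=
    (h1.comp y (hψ.mdifferentiableAt (by simp))).differentiableAt
  have h3 : ContDiffAt ℂ ω (extChartAt 𝓘(ℂ, E) (ψ y) ∘ ψ) y :=
    (contMDiffAt_extChartAt.comp y hψ).contDiffAt
  have h4 : DifferentiableAt ℂ (fderiv ℂ (extChartAt 𝓘(ℂ, E) (ψ y) ∘ ψ)) y :=
    (h3.fderiv_right (m := 1) le_top).differentiableAt one_ne_zero
  refine (h2.continuousAlternatingMap_apply fun i =>
    h4.clm_apply (differentiableAt_const (bs i))).congr_of_eventuallyEq ?_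
  have h5 : ∀ᶠ w in 𝓝 y, ψ w ∈ (chartAt E (ψ y)).source :=
    hψ.continuousAt.preimage_mem_nhds (chart_source_mem_nhds E (ψ y))
  have h6 : ∀ᶠ w in 𝓝 y, ContMDiffAt 𝓘(ℂ, C2) 𝓘(ℂ, E) 1 ψ w :=
    (contMDiffAt_iff_contMDiffAt_nhds (by simp)).1 (hψ.of_le le_top)
  filter_upwards [h5, h6] with w hw hw'
  have h7 := mfderiv_comp w (mdifferentiableAt_extChartAt (I := 𝓘(ℂ, E)) hw)
    (hw'.mdifferentiableAt one_ne_zero)
  rw [mfderiv_eq_fderiv, ← TangentBundle.continuousLinearMapAt_trivializationAt hw] at h7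
  have h8 : ∀ i, (trivializationAt E (TangentSpace 𝓘(ℂ, E)) (ψ y)).symmL ℂ (ψ w)
      (fderiv ℂ (extChartAt 𝓘(ℂ, E) (ψ y) ∘ ψ) w (bs i)) = dif (E := E) ψ w (bs i) := fun i => by
    rw [h7]
    exact Trivialization.symmL_continuousLinearMapAt _ hw _
  simp only [ContinuousAlternatingMap.inCoordinates, pull, ← h8]
  simp [Function.comp_def]
  rfl

/-- The charts composed with a linear isomorphism. -/
@[reducible] noncomputable def cs (X : Type) [TopologicalSpace X] [ChartedSpace E X]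
    (L : E ≃L[ℂ] C2) : ChartedSpace C2 X where
  atlas := (fun e => e.transHomeomorph L.toHomeomorph) '' atlas E X
  chartAt x := (chartAt E x).transHomeomorph L.toHomeomorph
  mem_chart_source x := mem_chart_source E x
  chart_mem_atlas x := ⟨_, chart_mem_atlas E x, rfl⟩

theorem par_smooth (L : E ≃L[ℂ] C2) {e : OpenPartialHomeomorph X E} (he : e ∈ atlas E X) {y : C2}
    (hy : L.symm y ∈ e.target) :
    ContMDiffAt 𝓘(ℂ, C2) 𝓘(ℂ, E) ω (fun y => e.symm (L.symm y)) y :=
  (contMDiffAt_symm_of_mem_maximalAtlas (IsManifold.subset_maximalAtlas he) hy).comp y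
    L.symm.contDiff.contMDiff.contMDiffAt

theorem tr_smooth (L : E ≃L[ℂ] C2) {e t : OpenPartialHomeomorph X E} (he : e ∈ atlas E X)
    (ht : t ∈ atlas E X) {y : C2} (hy : L.symm y ∈ e.target)
    (h : e.symm (L.symm y) ∈ t.source) :
    ContDiffAt ℂ ω (fun y => L (t (e.symm (L.symm y)))) y :=
  L.contDiff.contDiffAt.comp y ((contMDiffAt_of_mem_maximalAtlas
    (IsManifold.subset_maximalAtlas ht) h).comp y (par_smooth L he hy)).contDiffAt

theorem cs_manifold (L : E ≃L[ℂ] C2) :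
    @IsManifold ℂ _ C2 _ _ C2 _ 𝓘(ℂ, C2) ω X _ (cs X L) := by
  refine @isManifold_of_contDiffOn ℂ _ C2 _ _ C2 _ _ _ X _ (cs X L) ?_
  rintro _ _ ⟨e, he, rfl⟩ ⟨t, ht, rfl⟩ y hy
  exact (tr_smooth L he ht hy.1.1 hy.1.2).contDiffWithinAt

/-- The surface with the coefficients of its form. -/
noncomputable def toK3 [T2Space X] [CompactSpace X] [SimplyConnectedSpace X] (L : E ≃L[ℂ] C2)
    (σ : ∀ x : X, Kx E X x) (hσ : HolTo E 𝓘(ℂ, E) (fun x : X => (⟨x, σ x⟩ : Can E X)))
    (h0 : ∀ x, σ x ≠ 0) : K3 where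
  X := X
  charts := cs X L
  manifold := cs_manifold L
  vol e := pull (E := E) σ e.symm
  holo := by
    rintro _ ⟨e, he, rfl⟩
    refine ⟨fun y hy => (pull_diff hσ (par_smooth L he hy)).differentiableWithinAt,
      fun y hy => ⟨pull_ne (h0 _) ?_, ?_⟩⟩
    · have h1 := (mdifferentiable_of_mem_atlas (I := 𝓘(ℂ, E)) he).symm
      have h2 := ((h1.mdifferentiableAt (x := L.symm y) hy).hasMFDerivAt.comp y
        L.symm.hasFDerivAt.hasMFDerivAt).mfderiv
      intro v
      obtain ⟨u, rfl⟩ := h1.mfderiv_surjective hy v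
      obtain ⟨u, rfl⟩ := L.symm.surjective u
      exact ⟨u, DFunLike.congr_fun h2 u⟩
    · rintro _ ⟨t, ht, rfl⟩ h
      have h1 : L.symm (L (t (e.symm (L.symm y)))) ∈ t.target := by
        rw [L.symm_apply_apply]
        exact t.map_source h
      refine pull_comp _ (τ := fun y => L (t (e.symm (L.symm y))))
        ((tr_smooth L he ht hy h).differentiableAt (by simp))
        ((par_smooth L ht h1).mdifferentiableAt (by simp)) ?_
      filter_upwards [(par_smooth L he hy).continuousAt.preimage_mem_nhds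
        (t.open_source.mem_nhds h)] with w hw
      change e.symm (L.symm w) = t.symm (L.symm (L (t (e.symm (L.symm w)))))
      rw [L.symm_apply_apply, t.left_inv hw]

theorem hol_iff (L : E ≃L[ℂ] C2) {m : ℕ} (f : (Fin m → ℂ) → X) (z : Fin m → ℂ) :
    @HolV X _ (cs X L) m f z ↔ MDifferentiableAt 𝓘(ℂ, Fin m → ℂ) 𝓘(ℂ, E) f z := by
  rw [mdifferentiableAt_iff]
  refine and_congr_right fun _ => ?_
  refine (L.comp_differentiableAt_iff (f := fun w => chartAt E (f z) (f w))).trans ?_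
  simp [writtenInExtChartAt, Function.comp_def, differentiableWithinAt_univ, chartAt_self_eq]

attribute [local instance] realManifold

theorem dist_cont [T2Space X] [CompactSpace X] (g : Met E X) :
    (Continuous fun p : X × X => P290L.dist g p.1 p.2) ∧ ∀ x, P290L.dist g x x = 0 := by
  let _ : RiemannianBundle (TangentSpace 𝓘(ℝ, E) : X → Type) := ⟨g.toRiemannianMetric⟩
  have : IsContinuousRiemannianBundle E (TangentSpace 𝓘(ℝ, E) : X → Type) :=
    ⟨g.inner, g.contMDiff.continuous, fun _ _ _ => rfl⟩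
  let _ : PseudoEMetricSpace X := .ofRiemannianMetric 𝓘(ℝ, E) X
  exact ⟨continuous_edist, fun x => edist_self x⟩

theorem oka (all : ∀ X : K3, P290.All.IsOka X.X) (h : Module.finrank ℂ E = 2) [T2Space X]
    [CompactSpace X] [SimplyConnectedSpace X] (hf : HasForm E X) (g : Met E X) :
    P290L.IsOka g := by
  classical
  obtain ⟨σ, hσ, h0⟩ := hf
  have : FiniteDimensional ℂ E := Module.finite_of_finrank_pos (by omega)
  have L : E ≃L[ℂ] C2 := ContinuousLinearEquiv.ofFinrankEq (by rw [h]; simp)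
  intro m hm K hK hc hv U hU f hf ε hε
  obtain ⟨z₀, hz₀⟩ := hK
  let f' : (Fin m → ℂ) → X := fun z => if hz : z ∈ U then f ⟨z, hz⟩ else f ⟨z₀, hU hz₀⟩
  have e : f' ∘ Subtype.val = f := funext fun z => dif_pos z.2
  obtain ⟨d1, d0⟩ := dist_cont g
  have hall : @P290.All.IsOka X _ (cs X L) := all (toK3 L σ hσ h0)
  obtain ⟨F, hF, hd⟩ := hall m K U hm hc hv ⟨z₀, hz₀⟩ U.isOpen hU f'
    (fun z hz => (hol_iff L f' z).2 <|
      (differentiableWithinAt_localInvariantProp.liftPropAt_iff_comp_subtype_val f'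
        (⟨z, hz⟩ : U)).2 (by rw [e]; exact hf ⟨z, hz⟩))
    (fun x y => (min 1 (P290L.dist g x y)).toReal)
    (ENNReal.continuousOn_toReal.comp_continuous (continuous_const.min d1) fun p =>
      ne_top_of_le_ne_top ENNReal.one_ne_top (min_le_left _ _))
    (fun x => by simp [d0]) (min 1 (ε / 2)) (by positivity)
  refine ⟨F, fun z => (hol_iff L F z).1 (hF z), (iSup_le fun z => ?_).trans_lt
    ((ENNReal.ofReal_lt_ofReal_iff hε).2 (half_lt_self hε))⟩
  have h1 := hd z z.2
  rw [show f' z = f ⟨z, hU z.2⟩ from dif_pos _, lt_min_iff] at h1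
  rcases le_total 1 (P290L.dist g (F z) (f ⟨z, hU z.2⟩)) with h2 | h2
  · rw [min_eq_left h2] at h1
    exact absurd h1.1 (by simp)
  · rw [min_eq_right h2] at h1
    exact (ENNReal.le_ofReal_iff_toReal_le (ne_top_of_le_ne_top ENNReal.one_ne_top h2)
      (by positivity)).2 h1.2.le

end Vale.Agent.P290L37
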